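import Vale.Agent.P232.GapPair.Bin2.Items0
import Vale.Agent.P232.GapPair.Bin2.Items1
import Vale.Agent.P232.GapPair.Bin2.Items2

/-! # P232: certificate for one small axis, the tree -/

namespace Vale.Agent.P232.GapPair.Bin2

/-- All items of the interval. -/
def items : List Item :=
  chunk0 ++ chunk1 ++ chunk2

def part0 : PTree := (.cutX 6700000 (.cutY 1110000 (.cutZ 1600000 (.cutZ 1200000 (.cutY 800000 (.cutZ 800000 (.pair 51 5 5) (.pair 51 26 7)) (.cutZ 800000 (.pair 51 7 26) (.cutY 1000000 (.pair 51 29 7) (.pair 51 9 7)))) (.cutY 800000 (.pair 51 26 8) (.cutY 1000000 (.cutZ 1400000 (.pair 51 29 33) (.pair 51 29 31)) (.cutZ 1400000 (.pair 51 46 33) (.pair 51 46 31))))) (.cutZ 2400000 (.cutY 800000 (.cutZ 2000000 (.cutY 600000 (.pair 51 35 20) (.cutZ 1800000 (.pair 51 37 39) (.pair 51 37 40))) (.cutY 600000 (.pair 51 12 36) (.pair 51 37 36))) (.cutZ 2000000 (.cutY 1000000 (.cutZ 1800000 (.pair 51 49 39)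 (.pair 51 21 40)) (.cutZ 1800000 (.pair 51 50 43) (.pair 51 50 40))) (.cutY 1000000 (.pair 51 21 36) (.pair 51 47 15)))) (.cutY 800000 (.pair 51 12 44) (.pair 51 22 17)))) .graph) (.cutX 6750000 (.cutY 1060000 (.cutZ 1600000 (.cutZ 1200000 (.cutY 800000 (.cutZ 800000 (.pair 52 5 5) (.pair 52 26 7)) (.cutZ 800000 (.pair 52 7 5) (.pair 52 53 7))) (.cutY 800000 (.pair 52 26 8) (.cutY 900000 (.pair 52 29 8) (.cutZ 1400000 (.pair 52 53 33) (.pair 52 54 31))))) (.cutZ 2400000 (.cutY 800000 (.cutZ 2000000 (.cutY 600000 (.pair 52 35 20) (.cutZ 1800000 (.pair 52 37 39) (.pair 52 37 40))) (.cutY 600000 (.pair 52 12 36) (.pair 52 55 36))) (.cutZ 2000000 (.cutY 900000 (.pair 52 56 20) (.cutZ 1800000 (.pair 52 57 39) (.pair 52 57 40))) (.cutY 900000 (.pair 52 56 36) (.pair 52 58 15)))) (.cutY 800000 (.pair 52 12 44) (.pair 52 22 17)))) .graph) (.cutX 6800000 (.cutY 990000 (.cutZ 1600000 (.cutZ 1200000 (.cutY 800000 (.cutZ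 800000 (.pair 59 5 5) (.pair 59 26 7)) (.cutZ 800000 (.pair 59 53 5) (.pair 59 53 7))) (.cutY 800000 (.pair 59 26 8) (.cutZ 1400000 (.pair 59 29 33) (.pair 59 29 31)))) (.cutZ 2400000 (.cutY 800000 (.cutZ 2000000 (.cutY 600000 (.pair 59 35 20) (.cutZ 1800000 (.pair 59 37 39) (.pair 59 37 40))) (.cutY 600000 (.pair 59 12 36) (.pair 59 55 36))) (.cutZ 2000000 (.cutZ 1800000 (.pair 59 60 39) (.pair 59 21 40)) (.pair 59 21 36))) (.cutY 800000 (.pair 59 12 44) (.pair 59 21 44)))) .graph) (.cutX 6850000 (.cutY 910000 (.cutZ 1600000 (.cutZ 1200000 (.cutZ 800000 (.pair 61 62 5) (.cutY 700000 (.pair 61 26 7) (.pair 61 63 7))) (.cutY 700000 (.pair 61 26 8) (.pair 61 64 8))) (.cutZ 2400000 (.cutZ 2000000 (.cutY 700000 (.pair 61 65 20) (.cutZ 1800000 (.pair 61 64 39) (.pair 61 66 67))) (.cutY 700000 (.pair 61 65 36) (.pair 61 68 36))) (.cutY 700000 (.pair 61 12 44) (.pair 61 68 44)))) .graph) (.cutX 6900000 (.cutY 810000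 (.cutZ 1600000 (.cutZ 1200000 (.cutZ 800000 (.pair 69 62 5) (.pair 69 70 7)) (.cutY 600000 (.pair 69 26 8) (.pair 69 71 8))) (.cutZ 2400000 (.cutZ 2000000 (.cutY 600000 (.pair 69 65 20) (.cutZ 1800000 (.pair 69 71 39) (.pair 69 72 67))) (.cutY 600000 (.pair 69 65 36) (.pair 69 73 36))) (.cutZ 2800000 (.pair 69 74 75) (.pair 69 74 76)))) .graph) (.cutX 6950000 (.cutY 710000 (.cutZ 1600000 (.cutZ 1200000 (.cutZ 800000 (.pair 77 5 5) (.pair 77 26 7)) (.pair 77 26 8)) (.cutZ 2400000 (.cutZ 2000000 (.cutZ 1800000 (.pair 77 78 39) (.pair 77 78 67)) (.pair 77 79 36)) (.pair 77 79 44))) .graph) (.cutX 7000000 (.base 13868753 0 [(4000,9998775),(25837,9992087),(91075,9972080),(198893,9938927),(347935,9892915),(536327,9834447),(761699,9764043),(1021218,9682336),(1311620,9590082),(1629253,9488149),(1970122,9377528),(2329941,9259322),(2704185,9134756),(3088147,9005164),(3477000,8760520),(3865853,8441255),(4249815,8078440),(4624059,7672908),(4983878,7226618),(5324747,6742797),(5642380,6226157),(5932782,5683268),(6192301,5123194),(6417673,4558605),(6606065,4007696),(6755107,3497338),(6862925,2842215),(6928163,2081541),(6950000,1743423)])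 .graph)))))))

def part1 : PTree := (.cutX 6550000 (.cutY 1250000 (.cutX 5600000 (.cutX 5200000 (.cutZ 1600000 (.pair 0 1 2) (.pair 0 1 3)) (.cutZ 1600000 (.cutY 800000 (.cutZ 1200000 (.cutZ 800000 (.pair 4 5 6) (.pair 4 5 7)) (.pair 4 5 8)) (.cutZ 1200000 (.cutY 1000000 (.cutZ 800000 (.pair 4 7 5) (.pair 4 7 7)) (.cutZ 800000 .empty (.pair 4 9 7))) (.pair 4 10 11))) (.cutZ 2400000 (.cutY 800000 (.pair 4 12 13) (.cutZ 2000000 (.pair 4 10 14) (.pair 4 10 15))) (.pair 4 16 17)))) (.cutX 6000000 (.cutZ 1600000 (.cutY 800000 (.cutZ 1200000 (.cutZ 800000 (.pair 18 5 5) (.pair 18 5 7)) (.pair 18 5 8)) (.cutZ 1200000 (.cutY 1000000 (.cutZ 800000 (.pair 18 7 5) (.pair 18 7 7)) (.cutZ 800000 .empty (.pair 18 9 7))) (.cutY 1000000 (.pair 18 10 8) (.pair 18 19 11)))) (.cutZ 2400000 (.cutY 800000 (.cutZ 2000000 (.pair 18 12 20) (.pair 18 12 15)) (.cutZ 2000000 (.cutY 1000000 (.pair 18 21 20) (.pair 18 19 14)) (.pair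 18 22 15))) (.cutY 800000 (.pair 18 12 17) (.pair 18 22 17)))) (.cutZ 1600000 (.cutY 800000 (.cutZ 1200000 (.cutX 6200000 (.cutZ 800000 (.pair 23 5 5) (.pair 23 5 7)) (.cutZ 800000 (.pair 24 5 5) (.pair 24 5 7))) (.pair 25 26 8)) (.cutZ 1200000 (.cutX 6200000 (.cutY 1000000 (.cutZ 800000 (.pair 23 7 5) (.pair 23 7 7)) (.cutZ 800000 .empty (.pair 23 9 7))) (.cutY 1000000 (.cutZ 800000 (.pair 25 7 5) (.pair 25 7 7)) (.cutZ 800000 .empty (.cutX 6400000 (.pair 27 9 7) (.cutY 1100000 (.pair 25 9 7) (.pair 25 28 7)))))) (.cutX 6200000 (.cutY 1000000 (.pair 23 29 8) (.cutY 1100000 (.pair 23 19 11) (.pair 23 30 11))) (.cutY 1000000 (.cutX 6400000 (.pair 27 29 8) (.cutZ 1400000 (.pair 25 29 8) (.pair 25 29 31))) (.cutX 6400000 (.cutY 1100000 (.pair 27 32 11) (.cutZ 1400000 (.pair 27 30 11) (.pair 27 30 31))) (.cutY 1100000 (.cutZ 1400000 (.pair 25 32 11) (.pair 25 32 31)) (.cutZ 1400000 (.pair 25 30 33) (.pair 25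 30 34)))))))) (.cutZ 2400000 (.cutY 800000 (.cutX 6200000 (.cutZ 2000000 (.pair 23 35 20) (.pair 23 12 36)) (.cutZ 2000000 (.cutX 6400000 (.cutY 600000 (.pair 27 35 20) (.pair 27 37 20)) (.cutY 600000 (.pair 25 35 20) (.pair 25 37 20))) (.cutX 6400000 (.pair 27 12 36) (.cutY 600000 (.pair 25 12 36) (.pair 25 37 36))))) (.cutX 6200000 (.cutZ 2000000 (.cutY 1000000 (.pair 23 21 20) (.cutY 1100000 (.pair 23 32 14) (.pair 23 30 14))) (.cutY 1000000 (.pair 23 21 36) (.pair 23 38 15))) (.cutZ 2000000 (.cutY 1000000 (.cutX 6400000 (.cutZ 1800000 (.pair 27 29 39) (.pair 27 21 40)) (.cutZ 1800000 (.pair 25 29 39) (.pair 25 21 40))) (.cutX 6400000 (.cutY 1100000 (.pair 27 41 14) (.pair 27 42 14)) (.cutY 1100000 (.pair 25 41 14) (.cutZ 1800000 (.pair 25 42 43) (.pair 25 42 40))))) (.cutY 1000000 (.pair 25 21 36) (.pair 25 38 15))))) (.cutY 800000 (.pair 25 12 44) (.pair 25 22 17)))))) .graph) (.cutX 6600000 (.cutY 1180000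 (.cutZ 1600000 (.cutY 800000 (.cutZ 1200000 (.cutZ 800000 (.pair 45 5 5) (.pair 45 26 7)) (.pair 45 26 8)) (.cutZ 1200000 (.cutZ 800000 (.pair 45 7 26) (.cutY 1000000 (.pair 45 29 7) (.pair 45 9 7))) (.cutY 1000000 (.cutZ 1400000 (.pair 45 29 33) (.pair 45 29 31)) (.cutZ 1400000 (.pair 45 19 33) (.pair 45 46 34))))) (.cutZ 2400000 (.cutY 800000 (.cutZ 2000000 (.cutY 600000 (.pair 45 35 20) (.pair 45 37 20)) (.cutY 600000 (.pair 45 12 36) (.pair 45 37 36))) (.cutZ 2000000 (.cutY 1000000 (.cutZ 1800000 (.pair 45 29 39) (.pair 45 21 40)) (.cutZ 1800000 (.cutY 1100000 (.pair 45 41 43) (.pair 45 42 43)) (.pair 45 47 40))) (.cutY 1000000 (.pair 45 21 36) (.pair 45 47 15)))) (.cutY 800000 (.pair 45 12 44) (.pair 45 22 17)))) .graph) (.cutX 6650000 (.cutY 1150000 (.cutZ 1600000 (.cutZ 1200000 (.cutY 800000 (.cutZ 800000 (.pair 48 5 5) (.pair 48 26 7)) (.cutZ 800000 (.pair 48 7 26) (.cutY 1000000 (.pair 48 29 7) (.pair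 48 9 7)))) (.cutY 800000 (.pair 48 26 8) (.cutY 1000000 (.cutZ 1400000 (.pair 48 29 33) (.pair 48 29 31)) (.cutZ 1400000 (.pair 48 46 33) (.pair 48 46 31))))) (.cutZ 2400000 (.cutY 800000 (.cutZ 2000000 (.cutY 600000 (.pair 48 35 20) (.cutZ 1800000 (.pair 48 37 39) (.pair 48 37 40))) (.cutY 600000 (.pair 48 12 36) (.pair 48 37 36))) (.cutZ 2000000 (.cutY 1000000 (.cutZ 1800000 (.pair 48 49 39) (.pair 48 21 40)) (.cutZ 1800000 (.pair 48 50 43) (.pair 48 50 40))) (.cutY 1000000 (.pair 48 21 36) (.pair 48 47 15)))) (.cutY 800000 (.pair 48 12 44) (.pair 48 22 17)))) .graph) part0)))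

def tree : PTree := part1

theorem tree_ok : PTree.ok bin items tree = true := by
  simp only [PTree.ok, Bool.and_eq_true]
  refine ⟨⟨by decide +kernel, ?_⟩, by decide +kernel⟩
  simp only [items, List.all_append, chunk0_ok, chunk1_ok, chunk2_ok, Bool.and_self]

end Vale.Agent.P232.GapPair.Bin2
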